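import Vale.Agent.P237.Quant.TailData.N17.tailN17P0Part0
import Vale.Agent.P237.Quant.TailData.N17.tailN17P0Part1

/-!
Tail calibration tailN17P0 in dimension 17. The check. Generated data, checked by the kernel.
-/

set_option maxRecDepth 100000
set_option linter.all false

namespace Vale.Agent.P237.Quant.TailData

open TailCert


/-- The calibration. -/
noncomputable def tailN17P0 : Cfg :=
  tailN17P0Base.withIvals (List.flatten [tailN17P0L0, tailN17P0L1, tailN17P0L2, tailN17P0L3, tailN17P0L4, tailN17P0L5, tailN17P0L6])

theorem tailN17P0_parts : [tailN17P0L0, tailN17P0L1, tailN17P0L2, tailN17P0L3, tailN17P0L4, tailN17P0L5, tailN17P0L6].Forall fun l => tailN17P0Base.partUsed tailN17P0Used l = true := by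
  simp only [List.forall_cons, List.Forall]
  exact ⟨tailN17P0L0_ok, tailN17P0L1_ok, tailN17P0L2_ok, tailN17P0L3_ok, tailN17P0L4_ok, tailN17P0L5_ok, tailN17P0L6_ok⟩

theorem tailN17P0_check : tailN17P0.check = true :=
  Cfg.check_of_parts (by decide +kernel) tailN17P0_parts

end Vale.Agent.P237.Quant.TailData
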