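import Vale.Agent.P237.Quant.TailData.N17.tailN17P2Part0
import Vale.Agent.P237.Quant.TailData.N17.tailN17P2Part1
import Vale.Agent.P237.Quant.TailData.N17.tailN17P2Part2
import Vale.Agent.P237.Quant.TailData.N17.tailN17P2Part3

/-!
Tail calibration tailN17P2 in dimension 17. The check. Generated data, checked by the kernel.
-/

set_option maxRecDepth 100000
set_option linter.all false

namespace Vale.Agent.P237.Quant.TailData

open TailCert


/-- The calibration. -/
noncomputable def tailN17P2 : Cfg :=
  tailN17P2Base.withIvals (List.flatten [tailN17P2L0, tailN17P2L1, tailN17P2L2, tailN17P2L3, tailN17P2L4, tailN17P2L5, tailN17P2L6, tailN17P2L7, tailN17P2L8, tailN17P2L9, tailN17P2L10, tailN17P2L11, tailN17P2L12])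

theorem tailN17P2_parts : [tailN17P2L0, tailN17P2L1, tailN17P2L2, tailN17P2L3, tailN17P2L4, tailN17P2L5, tailN17P2L6, tailN17P2L7, tailN17P2L8, tailN17P2L9, tailN17P2L10, tailN17P2L11, tailN17P2L12].Forall fun l => tailN17P2Base.partUsed tailN17P2Used l = true := by
  simp only [List.forall_cons, List.Forall]
  exact ⟨tailN17P2L0_ok, tailN17P2L1_ok, tailN17P2L2_ok, tailN17P2L3_ok, tailN17P2L4_ok, tailN17P2L5_ok, tailN17P2L6_ok, tailN17P2L7_ok, tailN17P2L8_ok, tailN17P2L9_ok, tailN17P2L10_ok, tailN17P2L11_ok, tailN17P2L12_ok⟩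

theorem tailN17P2_check : tailN17P2.check = true :=
  Cfg.check_of_parts (by decide +kernel) tailN17P2_parts

end Vale.Agent.P237.Quant.TailData
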