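import Vale.Agent.P237.Quant.TailData.N17.tailN17P3Part0
import Vale.Agent.P237.Quant.TailData.N17.tailN17P3Part1
import Vale.Agent.P237.Quant.TailData.N17.tailN17P3Part2

/-!
Tail calibration tailN17P3 in dimension 17. The check. Generated data, checked by the kernel.
-/

set_option maxRecDepth 100000
set_option linter.all false

namespace Vale.Agent.P237.Quant.TailData

open TailCert


/-- The calibration. -/
noncomputable def tailN17P3 : Cfg :=
  tailN17P3Base.withIvals (List.flatten [tailN17P3L0, tailN17P3L1, tailN17P3L2, tailN17P3L3, tailN17P3L4, tailN17P3L5, tailN17P3L6, tailN17P3L7, tailN17P3L8, tailN17P3L9])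

theorem tailN17P3_parts : [tailN17P3L0, tailN17P3L1, tailN17P3L2, tailN17P3L3, tailN17P3L4, tailN17P3L5, tailN17P3L6, tailN17P3L7, tailN17P3L8, tailN17P3L9].Forall fun l => tailN17P3Base.partUsed tailN17P3Used l = true := by
  simp only [List.forall_cons, List.Forall]
  exact ⟨tailN17P3L0_ok, tailN17P3L1_ok, tailN17P3L2_ok, tailN17P3L3_ok, tailN17P3L4_ok, tailN17P3L5_ok, tailN17P3L6_ok, tailN17P3L7_ok, tailN17P3L8_ok, tailN17P3L9_ok⟩

theorem tailN17P3_check : tailN17P3.check = true :=
  Cfg.check_of_parts (by decide +kernel) tailN17P3_parts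

end Vale.Agent.P237.Quant.TailData
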