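import Vale.Agent.P237.Quant.TailPartsLink
import Vale.Agent.P237.Quant.RowTables
import Vale.Agent.P237.Quant.EnvelopeTableData.N16
import Vale.Agent.P237.Quant.TailData.N17.tailN17P0
import Vale.Agent.P237.Quant.TailData.N17.tailN17P1
import Vale.Agent.P237.Quant.TailData.N17.tailN17P2
import Vale.Agent.P237.Quant.TailData.N17.tailN17P3
import Vale.Agent.P237.Quant.TailData.N17.tailN17N0
import Vale.Agent.P237.Quant.TailData.N17.tailN17N1

/-!
The tail inequalities of the rows of both sides in dimension 17. Generated.
-/

namespace Vale.Agent.P237.Quant

open TailCert TailData

/-- The tail inequalities of `negRow14` in dimension 17. -/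
theorem negRow14_tailAt17 : negRow14.TailAt 16 := by
  intro P hP
  simp only [negRow14, binsOf, List.mem_cons, List.not_mem_nil, or_false] at hP
  rcases hP with rfl | rfl
  · exact tailBin_negParts tailN17N0_check tailN17N0_parts envTable17_check (by decide +kernel)
  · exact tailBin_negParts tailN17N1_check tailN17N1_parts envTable17_check (by decide +kernel)

/-- The tail inequalities of `posRow16` in dimension 17. -/
theorem posRow16_tailAt17 : posRow16.TailAt 16 := by
  intro P hP
  simp only [posRow16, posRowA, posCuts14, posCuts16, binsOf, List.mem_cons, List.not_mem_nil, or_false] at hP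
  rcases hP with rfl | rfl | rfl | rfl
  · exact tailBin_posParts tailN17P0_check tailN17P0_parts envTable17_check (by decide +kernel)
  · exact tailBin_posParts tailN17P1_check tailN17P1_parts envTable17_check (by decide +kernel)
  · exact tailBin_posParts tailN17P2_check tailN17P2_parts envTable17_check (by decide +kernel)
  · exact tailBin_posParts tailN17P3_check tailN17P3_parts envTable17_check (by decide +kernel)

end Vale.Agent.P237.Quant
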